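import Vale.Agent.H14.Borsuk63.Data
import Vale.Agent.H57.GramDim
import Vale.Agent.H53.P052.GramAlgebra
import Vale.Agent.H19.BorsukGeom
import Vale.Agent.H82.Borsuk63.Srg
import Vale.Agent.H80.Borsuk63.Eig

/-!
# Assembly of the 63-dimensional counterexample

From the kernel-checked facts about the graph `adj` and the eigenvectors `g1`, `g2` we build
321 points of `EuclideanSpace ℝ (Fin 63)` that cannot be split into 64 parts of smaller diameter.
-/

namespace Vale.Agent.H14.Borsuk63

open Vale.Agent.H82 Vale.Agent.H80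

/-- The adjacency matrix entry as a real number. -/
noncomputable def aR (u v : Fin 416) : ℝ := if adj u.val v.val = true then 1 else 0

/-- The first eigenvector as a real vector. -/
noncomputable def g1R (v : Fin 416) : ℝ := ((g1 v.val : ℤ) : ℝ)

/-- The second eigenvector as a real vector. -/
noncomputable def g2R (v : Fin 416) : ℝ := ((g2 v.val : ℤ) : ℝ)

/-- The Gram matrix: `96` times the orthogonal projection onto the 63-dimensional flat. -/
noncomputable def gramM : Matrix (Fin 416) (Fin 416) ℝ := fun u v =>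
  (if u = v then 16 else 0) + 4 * aR u v - 1
    - 2 * (g1R u * g1R v + g2R u * g2R v) + (g1R u * g2R v + g2R u * g1R v)

theorem aR_symm (u v : Fin 416) : aR u v = aR v u := by
  unfold aR
  rw [adj_symm u.val v.val u.isLt v.isLt]

theorem aR_diag (u : Fin 416) : aR u u = 0 := by
  unfold aR
  rw [adj_irrefl u.val u.isLt]
  simp

theorem sum_fin_eq_card (P : ℕ → Prop) [DecidablePred P] :
    (∑ w : Fin 416, (if P w.val then (1 : ℝ) else 0))
      = (((Finset.range 416).filter P).card : ℝ) := by
  rw [Fin.sum_univ_eq_sum_range (fun w => if P w then (1 : ℝ) else 0) 416, Finset.sum_boole]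

theorem aR_srg (u v : Fin 416) :
    (∑ w, aR u w * aR w v) = (if u = v then 80 else 0) + 16 * aR u v + 20 := by
  have h1 : ∀ w : Fin 416, aR u w * aR w v
      = if (adj u.val w.val = true ∧ adj w.val v.val = true) then (1 : ℝ) else 0 := by
    intro w
    unfold aR
    by_cases h : adj u.val w.val = true <;> by_cases h' : adj w.val v.val = true <;> simp [h, h']
  rw [Finset.sum_congr rfl (fun w _ => h1 w),
    sum_fin_eq_card (fun w => adj u.val w = true ∧ adj w v.val = true),
    adj_srg u.val v.val u.isLt v.isLt]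
  unfold aR
  by_cases huv : u = v
  · subst huv
    by_cases h : adj u.val u.val = true <;> simp [h] <;> norm_num
  · have huv' : u.val ≠ v.val := fun h => huv (Fin.ext h)
    by_cases h : adj u.val v.val = true <;> simp [h, huv, huv'] <;> norm_num

theorem aR_deg (u : Fin 416) : (∑ w, aR u w) = 100 := by
  have h := aR_srg u u
  have h2 : ∀ w : Fin 416, aR u w * aR w u = aR u w := by
    intro w
    rw [aR_symm w u]
    unfold aR
    by_cases h : adj u.val w.val = true <;> simp [h]
  rw [Finset.sum_congr rfl (fun w _ => h2 w), aR_diag] at h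
  rw [h]
  norm_num

theorem sum_fin_cast (f : ℕ → ℤ) :
    (∑ w : Fin 416, ((f w.val : ℤ) : ℝ)) = (((∑ w ∈ Finset.range 416, f w : ℤ)) : ℝ) := by
  rw [Fin.sum_univ_eq_sum_range (fun w => ((f w : ℤ) : ℝ)) 416]
  push_cast
  rfl

theorem g1R_eig (v : Fin 416) : (∑ w, aR v w * g1R w) = 20 * g1R v := by
  have h1 : ∀ w : Fin 416, aR v w * g1R w
      = (((if adj v.val w.val = true then g1 w.val else 0 : ℤ)) : ℝ) := by
    intro w
    unfold aR g1R
    by_cases h : adj v.val w.val = true <;> simp [h]
  rw [Finset.sum_congr rfl (fun w _ => h1 w),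
    sum_fin_cast (fun w => if adj v.val w = true then g1 w else 0), g1_eig v.val v.isLt]
  unfold g1R
  push_cast
  rfl

theorem g2R_eig (v : Fin 416) : (∑ w, aR v w * g2R w) = 20 * g2R v := by
  have h1 : ∀ w : Fin 416, aR v w * g2R w
      = (((if adj v.val w.val = true then g2 w.val else 0 : ℤ)) : ℝ) := by
    intro w
    unfold aR g2R
    by_cases h : adj v.val w.val = true <;> simp [h]
  rw [Finset.sum_congr rfl (fun w _ => h1 w),
    sum_fin_cast (fun w => if adj v.val w = true then g2 w else 0), g2_eig v.val v.isLt]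
  unfold g2R
  push_cast
  rfl

theorem g1R_sum : (∑ w, g1R w) = 0 := by
  unfold g1R
  rw [sum_fin_cast g1, g1_sum]
  simp

theorem g2R_sum : (∑ w, g2R w) = 0 := by
  unfold g2R
  rw [sum_fin_cast g2, g2_sum]
  simp

theorem g1R_g1R : (∑ w, g1R w * g1R w) = 64 := by
  have h1 : ∀ w : Fin 416, g1R w * g1R w = (((g1 w.val * g1 w.val : ℤ)) : ℝ) := by
    intro w
    unfold g1R
    push_cast
    rfl
  rw [Finset.sum_congr rfl (fun w _ => h1 w), sum_fin_cast (fun w => g1 w * g1 w), g1_g1]
  norm_num

theorem g2R_g2R : (∑ w, g2R w * g2R w) = 64 := by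
  have h1 : ∀ w : Fin 416, g2R w * g2R w = (((g2 w.val * g2 w.val : ℤ)) : ℝ) := by
    intro w
    unfold g2R
    push_cast
    rfl
  rw [Finset.sum_congr rfl (fun w _ => h1 w), sum_fin_cast (fun w => g2 w * g2 w), g2_g2]
  norm_num

theorem g1R_g2R : (∑ w, g1R w * g2R w) = 32 := by
  have h1 : ∀ w : Fin 416, g1R w * g2R w = (((g1 w.val * g2 w.val : ℤ)) : ℝ) := by
    intro w
    unfold g1R g2R
    push_cast
    rfl
  rw [Finset.sum_congr rfl (fun w _ => h1 w), sum_fin_cast (fun w => g1 w * g2 w), g1_g2]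
  norm_num

theorem gramM_facts :
    gramM.transpose = gramM ∧ gramM * gramM = (96 : ℝ) • gramM
      ∧ gramM.trace = 96 * ((63 : ℕ) : ℝ) :=
  Vale.Agent.H53.gram_matrix_facts aR g1R g2R aR_symm aR_diag aR_deg aR_srg g1R_eig g2R_eig g1R_sum g2R_sum
    g1R_g1R g2R_g2R g1R_g2R gramM (fun _ _ => rfl)

/-- The 63-dimensional counterexample, given that the first 321 vertices span no 6-clique:
a finite set of positive diameter in `ℝ⁶³` such that for every map into 64 classes some class
contains two points at distance equal to the diameter. -/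
theorem borsuk_sixty_three_of_no_six_clique
    (no_six_clique : ∀ s : Finset ℕ, (∀ v ∈ s, v < 321) →
      (∀ u ∈ s, ∀ v ∈ s, u < v → adj u v = true) → s.card ≤ 5) :
    ∃ X : Finset (EuclideanSpace ℝ (Fin 63)),
      0 < Metric.diam (↑X : Set (EuclideanSpace ℝ (Fin 63))) ∧
      ∀ f : EuclideanSpace ℝ (Fin 63) → Fin 64, ∃ x ∈ X, ∃ y ∈ X, f x = f y ∧
        dist x y = Metric.diam (↑X : Set (EuclideanSpace ℝ (Fin 63))) := by
  obtain ⟨hsymm, hsq, htr⟩ := gramM_facts
  obtain ⟨y, hy⟩ := Vale.Agent.H57.exists_gram_of_sq_eq_smul gramM 96 (by norm_num) hsymm hsq htr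
  have hcast : ∀ u : Fin 321, u.val < 416 := fun u => lt_of_lt_of_le u.isLt (by norm_num)
  refine Vale.Agent.H19.borsuk_fails_of_config (fun u v => adj u.val v.val)
    (fun u => y ⟨u.val, hcast u⟩) ?_ ?_ ?_ ?_
  · intro u hu
    rw [hy]
    have h1 := (g_low u.val hu).1
    have h2 := (g_low u.val hu).2
    simp only [gramM, g1R, g2R, h1, h2, aR_diag]
    norm_num
  · intro u hu
    rw [hy]
    have h1 := g_top.1
    have h2 := g_top.2
    simp only [gramM, g1R, g2R, hu, h1, h2, aR_diag]
    norm_num
  · intro u v huv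
    rw [hy]
    have huv' : (⟨u.val, hcast u⟩ : Fin 416) ≠ ⟨v.val, hcast v⟩ := by
      intro h
      exact huv (Fin.ext (by simpa using congrArg Fin.val h))
    have hne : u.val ≠ v.val := fun h => huv (Fin.ext h)
    have hlow : u.val < 320 ∨ v.val < 320 := by
      have := u.isLt
      have := v.isLt
      omega
    have hprod : g1R ⟨u.val, hcast u⟩ * g1R ⟨v.val, hcast v⟩ = 0
        ∧ g2R ⟨u.val, hcast u⟩ * g2R ⟨v.val, hcast v⟩ = 0
        ∧ g1R ⟨u.val, hcast u⟩ * g2R ⟨v.val, hcast v⟩ = 0
        ∧ g2R ⟨u.val, hcast u⟩ * g1R ⟨v.val, hcast v⟩ = 0 := by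
      rcases hlow with h | h
      · have h1 := (g_low _ h).1
        have h2 := (g_low _ h).2
        simp [g1R, g2R, h1, h2]
      · have h1 := (g_low _ h).1
        have h2 := (g_low _ h).2
        simp [g1R, g2R, h1, h2]
    obtain ⟨p1, p2, p3, p4⟩ := hprod
    simp only [gramM, p1, p2, p3, p4, if_neg huv', aR]
    by_cases h : adj u.val v.val = true <;> simp [h] <;> norm_num
  · intro s hs
    have hinj : Function.Injective (fun u : Fin 321 => u.val) := fun a b h => Fin.ext h
    rw [← Finset.card_image_of_injective s hinj]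
    apply no_six_clique
    · intro v hv
      obtain ⟨w, _, rfl⟩ := Finset.mem_image.mp hv
      exact w.isLt
    · intro u hu v hv huv
      obtain ⟨a, ha, rfl⟩ := Finset.mem_image.mp hu
      obtain ⟨b, hb, rfl⟩ := Finset.mem_image.mp hv
      exact hs a ha b hb (fun h => by simp [h] at huv)

end Vale.Agent.H14.Borsuk63
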